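import Vale.Agent.P330.Parts

namespace Vale.Agent.Results.P330.EasyRegion

open Vale.Agent.P330

/-- For every generalized circuit `G` on a finite node set `V` and every rational `ε`:
(a) if `ε ≥ 1/2`, the constant assignment `1/2` `ε`-satisfies every gate;
(b) if `1/4 ≤ ε < 1/2`, the assignment reached from the constant `1/2` by `|V|` rounds of the
local rule `quarterStep` takes values in `[0,1]` and `ε`-satisfies every gate;
(c) if `0 < ε < 1/2`, the all-zero assignment and the assignment reached from the constant `1/2`
by `|V|` rounds of the local rule `logicStep` (values in `[0,1]`) together `ε`-satisfy at least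
`|T|` gates counted with multiplicity, so one of the two satisfies at least half of the gates. -/
theorem result (V : Type) [Fintype V] (G : GCircuit V) (ε : ℚ) :
    (1/2 ≤ ε → ∀ z g, G.gate z = some g → g.Sat ε (fun _ => 1/2) z) ∧
    (1/4 ≤ ε → ε < 1/2 →
      (∀ v, 0 ≤ ((quarterStep G ε)^[Fintype.card V] fun _ => 1/2) v ∧
        ((quarterStep G ε)^[Fintype.card V] fun _ => 1/2) v ≤ 1) ∧
      ∀ z g, G.gate z = some g →
        g.Sat ε ((quarterStep G ε)^[Fintype.card V] fun _ => 1/2) z) ∧
    (0 < ε → ε < 1/2 →
      (∀ v, 0 ≤ ((logicStep G ε)^[Fintype.card V] fun _ => 1/2) v ∧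
        ((logicStep G ε)^[Fintype.card V] fun _ => 1/2) v ≤ 1) ∧
      G.numGates ≤ G.numSat ε (fun _ => 0) +
        G.numSat ε ((logicStep G ε)^[Fintype.card V] fun _ => 1/2)) :=
  ⟨fun h z g hg => half_sat G ε h z g hg, quarter_part V G ε, half_part V G ε⟩

end Vale.Agent.Results.P330.EasyRegion
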