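import Vale.Agent.Results.P330.A0_PureCircuitSeventh
import Vale.Agent.Results.P330.EasyRegion

namespace Vale.Agent.Results.P330.A0000_Combined7

open Vale.Agent.P330

/-- Both sides of the parameter region for generalized circuits in one statement.

First conjunct (hard side): a local, gap-preserving reduction from Pure-Circuit (NOR and PURIFY
gates) to generalized circuits that works for every `0 < ε < 1/7`: at most `10 |Γ|` gates, gadget
soundness, no more violated gates in `C` than in `toGCircuit C`, and a `1 - δ` fraction of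
`ε`-satisfied gates decodes to a `1 - 10 δ` fraction of satisfied Pure-Circuit gates.

Second conjunct (easy side): for `ε ≥ 1/2` the constant `1/2` satisfies every gate; for
`1/4 ≤ ε < 1/2` an explicit `|V|`-round local rule gives an assignment in `[0,1]` satisfying every
gate; for `0 < ε < 1/2` one of two explicit assignments satisfies at least half of the gates. -/
theorem result :
    (∀ (Γ : Type) [Fintype Γ] [Nonempty Γ] (C : PureCircuit Γ) (ε : ℚ)
      (_ : 0 < ε) (_ : ε < 1/7) (x : Γ × S7.Loc → ℚ),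
      (S7.toGCircuit C).numGates ≤ 10 * Fintype.card Γ ∧
      (∀ g : Γ, (∀ l gt, (S7.toGCircuit C).gate (g, l) = some gt → gt.Sat ε x (g, l)) →
        C.SatAt (S7.decode ε x) g) ∧
      Fintype.card Γ + (S7.toGCircuit C).numSat ε x ≤
        C.numSat (S7.decode ε x) + (S7.toGCircuit C).numGates ∧
      (∀ δ : ℚ, (1 - δ) * ((S7.toGCircuit C).numGates : ℚ) ≤ ((S7.toGCircuit C).numSat ε x : ℚ) →
        (1 - 10 * δ) * (Fintype.card Γ : ℚ) ≤ (C.numSat (S7.decode ε x) : ℚ))) ∧
    (∀ (V : Type) [Fintype V] (G : GCircuit V) (ε : ℚ),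
      (1/2 ≤ ε → ∀ z g, G.gate z = some g → g.Sat ε (fun _ => 1/2) z) ∧
      (1/4 ≤ ε → ε < 1/2 →
        (∀ v, 0 ≤ ((quarterStep G ε)^[Fintype.card V] fun _ => 1/2) v ∧
          ((quarterStep G ε)^[Fintype.card V] fun _ => 1/2) v ≤ 1) ∧
        ∀ z g, G.gate z = some g →
          g.Sat ε ((quarterStep G ε)^[Fintype.card V] fun _ => 1/2) z) ∧
      (0 < ε → ε < 1/2 →
        (∀ v, 0 ≤ ((logicStep G ε)^[Fintype.card V] fun _ => 1/2) v ∧
          ((logicStep G ε)^[Fintype.card V] fun _ => 1/2) v ≤ 1) ∧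
        G.numGates ≤ G.numSat ε (fun _ => 0) +
          G.numSat ε ((logicStep G ε)^[Fintype.card V] fun _ => 1/2))) :=
  ⟨fun Γ _ _ C ε h0 h8 x => A0_PureCircuitSeventh.result Γ C ε h0 h8 x,
   fun V _ G ε => EasyRegion.result V G ε⟩

end Vale.Agent.Results.P330.A0000_Combined7
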