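import Vale.Agent.P330.S7.Sound

namespace Vale.Agent.Results.P330.A0_PureCircuitSeventh

open Vale.Agent.P330

/-- A local, gap-preserving reduction from Pure-Circuit (NOR and PURIFY gates) to generalized
circuits that works for every `0 < ε < 1/7`.  For a Pure-Circuit instance `C` with gate set `Γ`,
`toGCircuit C` replaces each gate by a gadget of at most 10 gates and `decode ε x` reads a
`0/1/⊥` assignment off an arbitrary assignment `x` of the generalized circuit.  Then:
(a) `toGCircuit C` has at most `10 |Γ|` gates;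
(b) if all gates of the gadget of `g` are `ε`-satisfied by `x`, then `g` is satisfied by
`decode ε x`;
(c) the number of violated gates of `C` is at most the number of violated gates of
`toGCircuit C`;
(d) if `x` `ε`-satisfies at least a `1 - δ` fraction of the gates of `toGCircuit C`, then
`decode ε x` satisfies at least a `1 - 10 δ` fraction of the gates of `C`. -/
theorem result (Γ : Type) [Fintype Γ] [Nonempty Γ] (C : PureCircuit Γ) (ε : ℚ)
    (h0 : 0 < ε) (h8 : ε < 1/7) (x : Γ × S7.Loc → ℚ) :
    (S7.toGCircuit C).numGates ≤ 10 * Fintype.card Γ ∧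
    (∀ g : Γ, (∀ l gt, (S7.toGCircuit C).gate (g, l) = some gt → gt.Sat ε x (g, l)) →
      C.SatAt (S7.decode ε x) g) ∧
    Fintype.card Γ + (S7.toGCircuit C).numSat ε x ≤
      C.numSat (S7.decode ε x) + (S7.toGCircuit C).numGates ∧
    (∀ δ : ℚ, (1 - δ) * ((S7.toGCircuit C).numGates : ℚ) ≤ ((S7.toGCircuit C).numSat ε x : ℚ) →
      (1 - 10 * δ) * (Fintype.card Γ : ℚ) ≤ (C.numSat (S7.decode ε x) : ℚ)) := by
  refine ⟨S7.numGates_le C, fun g hg => S7.gadget_sound C ε h0 h8 x g hg, S7.unsat_le C ε h0 h8 x, ?_⟩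
  intro δ hδ
  have h1 : (Fintype.card Γ : ℚ) + ((S7.toGCircuit C).numSat ε x : ℚ) ≤
      (C.numSat (S7.decode ε x) : ℚ) + ((S7.toGCircuit C).numGates : ℚ) := by
    exact_mod_cast S7.unsat_le C ε h0 h8 x
  have h2 : ((S7.toGCircuit C).numGates : ℚ) ≤ 10 * (Fintype.card Γ : ℚ) := by
    exact_mod_cast S7.numGates_le C
  have h3 : (0 : ℚ) ≤ ((S7.toGCircuit C).numGates : ℚ) := Nat.cast_nonneg _
  have h4 : (0 : ℚ) ≤ (Fintype.card Γ : ℚ) := Nat.cast_nonneg _
  have h5 : (0 : ℚ) ≤ (C.numSat (S7.decode ε x) : ℚ) := Nat.cast_nonneg _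
  by_cases hd : 0 ≤ δ
  · have : δ * ((S7.toGCircuit C).numGates : ℚ) ≤ δ * (10 * (Fintype.card Γ : ℚ)) :=
      mul_le_mul_of_nonneg_left h2 hd
    nlinarith
  · -- for negative `δ` the hypothesis forces more satisfied gates than gates
    have hd' : δ < 0 := not_le.mp hd
    have hle : ((S7.toGCircuit C).numSat ε x : ℚ) ≤ ((S7.toGCircuit C).numGates : ℚ) := by
      have : (S7.toGCircuit C).numSat ε x ≤ (S7.toGCircuit C).numGates := by
        classical
        unfold GCircuit.numSat GCircuit.numGates
        apply Finset.card_le_card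
        intro z hz
        simp only [Finset.mem_filter, Finset.mem_univ, true_and] at hz ⊢
        obtain ⟨gt, hgt, _⟩ := hz
        rw [hgt]; simp
      exact_mod_cast this
    have hpos : (0 : ℚ) < ((S7.toGCircuit C).numGates : ℚ) := by
      have : 0 < (S7.toGCircuit C).numGates := by
        classical
        unfold GCircuit.numGates
        obtain ⟨z, hz⟩ := (S7.toGCircuit C).nonempty
        exact Finset.card_pos.mpr ⟨z, by simp [hz]⟩
      exact_mod_cast this
    nlinarith

end Vale.Agent.Results.P330.A0_PureCircuitSeventh
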