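import Vale.Agent.P330.PureSound

namespace Vale.Agent.Results.P330.A_PureCircuitEighth

open Vale.Agent.P330

/-- A local, gap-preserving reduction from Pure-Circuit (NOR and PURIFY gates) to generalized
circuits that works for every `0 < ε < 1/8`.  For a Pure-Circuit instance `C` with gate set `Γ`,
`C.toGCircuit` replaces each gate by a gadget of at most 8 gates and `decode ε x` reads a
`0/1/⊥` assignment off an arbitrary assignment `x` of the generalized circuit.  Then:
(a) `C.toGCircuit` has at most `8 |Γ|` gates;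
(b) if all gates of the gadget of `g` are `ε`-satisfied by `x`, then `g` is satisfied by
`decode ε x`;
(c) the number of violated gates of `C` is at most the number of violated gates of
`C.toGCircuit`;
(d) if `x` `ε`-satisfies at least a `1 - δ` fraction of the gates of `C.toGCircuit`, then
`decode ε x` satisfies at least a `1 - 8 δ` fraction of the gates of `C`. -/
theorem result (Γ : Type) [Fintype Γ] [Nonempty Γ] (C : PureCircuit Γ) (ε : ℚ)
    (h0 : 0 < ε) (h8 : ε < 1/8) (x : Γ × Loc → ℚ) :
    C.toGCircuit.numGates ≤ 8 * Fintype.card Γ ∧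
    (∀ g : Γ, (∀ l gt, C.toGCircuit.gate (g, l) = some gt → gt.Sat ε x (g, l)) →
      C.SatAt (decode ε x) g) ∧
    Fintype.card Γ + C.toGCircuit.numSat ε x ≤
      C.numSat (decode ε x) + C.toGCircuit.numGates ∧
    (∀ δ : ℚ, (1 - δ) * (C.toGCircuit.numGates : ℚ) ≤ (C.toGCircuit.numSat ε x : ℚ) →
      (1 - 8 * δ) * (Fintype.card Γ : ℚ) ≤ (C.numSat (decode ε x) : ℚ)) := by
  refine ⟨numGates_le C, fun g hg => gadget_sound C ε h0 h8 x g hg, unsat_le C ε h0 h8 x, ?_⟩
  intro δ hδ
  have h1 : (Fintype.card Γ : ℚ) + (C.toGCircuit.numSat ε x : ℚ) ≤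
      (C.numSat (decode ε x) : ℚ) + (C.toGCircuit.numGates : ℚ) := by
    exact_mod_cast unsat_le C ε h0 h8 x
  have h2 : (C.toGCircuit.numGates : ℚ) ≤ 8 * (Fintype.card Γ : ℚ) := by
    exact_mod_cast numGates_le C
  have h3 : (0 : ℚ) ≤ (C.toGCircuit.numGates : ℚ) := Nat.cast_nonneg _
  have h4 : (0 : ℚ) ≤ (Fintype.card Γ : ℚ) := Nat.cast_nonneg _
  have h5 : (0 : ℚ) ≤ (C.numSat (decode ε x) : ℚ) := Nat.cast_nonneg _
  by_cases hd : 0 ≤ δ
  · have : δ * (C.toGCircuit.numGates : ℚ) ≤ δ * (8 * (Fintype.card Γ : ℚ)) :=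
      mul_le_mul_of_nonneg_left h2 hd
    nlinarith
  · -- for negative `δ` the hypothesis forces more satisfied gates than gates
    have hd' : δ < 0 := not_le.mp hd
    have hle : (C.toGCircuit.numSat ε x : ℚ) ≤ (C.toGCircuit.numGates : ℚ) := by
      have : C.toGCircuit.numSat ε x ≤ C.toGCircuit.numGates := by
        classical
        unfold GCircuit.numSat GCircuit.numGates
        apply Finset.card_le_card
        intro z hz
        simp only [Finset.mem_filter, Finset.mem_univ, true_and] at hz ⊢
        obtain ⟨gt, hgt, _⟩ := hz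
        rw [hgt]; simp
      exact_mod_cast this
    have hpos : (0 : ℚ) < (C.toGCircuit.numGates : ℚ) := by
      have : 0 < C.toGCircuit.numGates := by
        classical
        unfold GCircuit.numGates
        obtain ⟨z, hz⟩ := C.toGCircuit.nonempty
        exact Finset.card_pos.mpr ⟨z, by simp [hz]⟩
      exact_mod_cast this
    nlinarith
end Vale.Agent.Results.P330.A_PureCircuitEighth
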